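import Vale.Agent.P370.H993.Green

/-! **P2a** for products of shell functions `(p + r q) e^{-κ r}`. -/

namespace Vale.Agent.P370.H993

open MeasureTheory Set Filter Topology
open Vale.Agent.P363.H849

noncomputable section

/-- second pure derivatives of `wv` off the origin -/
def ws (κ : ℝ) (u : Poly × Poly) (k : Fin 3) (x : R3) : ℝ :=
  ((G (MvPolynomial.pderiv k (MvPolynomial.pderiv k u.1)) (hA κ) x
      + G (MvPolynomial.X k * MvPolynomial.pderiv k u.1) (hA1 κ) x)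
    + (G (MvPolynomial.pderiv k (MvPolynomial.X k * u.1)) (hA1 κ) x
      + G (MvPolynomial.X k * (MvPolynomial.X k * u.1)) (hA2 κ) x))
  + ((G (MvPolynomial.pderiv k (MvPolynomial.pderiv k u.2)) (hB κ) x
      + G (MvPolynomial.X k * MvPolynomial.pderiv k u.2) (hB1 κ) x)
    + (G (MvPolynomial.pderiv k (MvPolynomial.X k * u.2)) (hB1 κ) x
      + G (MvPolynomial.X k * (MvPolynomial.X k * u.2)) (hB2 κ) x))

/-- the gradient off the origin -/
def wg' (κ : ℝ) (u : Poly × Poly) (k : Fin 3) (x : R3) : ℝ :=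
    (G (MvPolynomial.pderiv k u.1) (hA κ) x + G (MvPolynomial.X k * u.1) (hA1 κ) x)
    + (G (MvPolynomial.pderiv k u.2) (hB κ) x + G (MvPolynomial.X k * u.2) (hB1 κ) x)

theorem wg_eq (κ : ℝ) (u : Poly × Poly) (k : Fin 3) {x : R3} (hx : x ≠ 0) :
    wg κ u k x = wg' κ u k x := by
  rw [wg, if_neg hx]; rfl

theorem wg'_contDiffAt {κ : ℝ} (hκ : 0 < κ) (u : Poly × Poly) (k : Fin 3) {x : R3} (hx : x ≠ 0) :
    ContDiffAt ℝ (⊤ : ℕ∞) (wg' κ u k) x := by
  have hx0 := norm_pos_iff.2 hx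
  exact ((G_contDiffAt _ hx ((isProfA hκ).sm _ hx0)).add
      (G_contDiffAt _ hx ((isProfA hκ).sm1 _ hx0))).add
    ((G_contDiffAt _ hx ((isProfB hκ).sm _ hx0)).add (G_contDiffAt _ hx ((isProfB hκ).sm1 _ hx0)))

theorem wg_eventuallyEq (κ : ℝ) (u : Poly × Poly) (k : Fin 3) {x : R3} (hx : x ≠ 0) :
    wg κ u k =ᶠ[𝓝 x] wg' κ u k := by
  filter_upwards [isOpen_ne.mem_nhds hx] with y hy
  exact wg_eq κ u k hy

theorem wg_differentiableAt {κ : ℝ} (hκ : 0 < κ) (u : Poly × Poly) (k : Fin 3) {x : R3}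
    (hx : x ≠ 0) : DifferentiableAt ℝ (wg κ u k) x :=
  ((wg'_contDiffAt hκ u k hx).differentiableAt (by simp)).congr_of_eventuallyEq
    (wg_eventuallyEq κ u k hx)

theorem wg_fderiv {κ : ℝ} (hκ : 0 < κ) (u : Poly × Poly) (k : Fin 3) {x : R3} (hx : x ≠ 0) :
    fderiv ℝ (wg κ u k) x (e3 k) = ws κ u k x := by
  rw [(wg_eventuallyEq κ u k hx).fderiv_eq]
  have hx0 := norm_pos_iff.2 hx
  have a1 : DifferentiableAt ℝ (G (MvPolynomial.pderiv k u.1) (hA κ)) x :=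
    (G_contDiffAt _ hx ((isProfA hκ).sm _ hx0)).differentiableAt (by simp)
  have a2 : DifferentiableAt ℝ (G (MvPolynomial.X k * u.1) (hA1 κ)) x :=
    (G_contDiffAt _ hx ((isProfA hκ).sm1 _ hx0)).differentiableAt (by simp)
  have b1 : DifferentiableAt ℝ (G (MvPolynomial.pderiv k u.2) (hB κ)) x :=
    (G_contDiffAt _ hx ((isProfB hκ).sm _ hx0)).differentiableAt (by simp)
  have b2 : DifferentiableAt ℝ (G (MvPolynomial.X k * u.2) (hB1 κ)) x :=
    (G_contDiffAt _ hx ((isProfB hκ).sm1 _ hx0)).differentiableAt (by simp)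
  have a12 : DifferentiableAt ℝ (fun x => G (MvPolynomial.pderiv k u.1) (hA κ) x +
      G (MvPolynomial.X k * u.1) (hA1 κ) x) x := a1.add a2
  have b12 : DifferentiableAt ℝ (fun x => G (MvPolynomial.pderiv k u.2) (hB κ) x +
      G (MvPolynomial.X k * u.2) (hB1 κ) x) x := b1.add b2
  unfold wg'
  rw [fderiv_fun_add a12 b12, _root_.add_apply, fderiv_fun_add a1 a2,
    _root_.add_apply, fderiv_fun_add b1 b2, _root_.add_apply,
    G_fderiv _ hx ((isProfA hκ).d _ hx0), G_fderiv _ hx ((isProfA hκ).d1 _ hx0),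
    G_fderiv _ hx ((isProfB hκ).d _ hx0), G_fderiv _ hx ((isProfB hκ).d1 _ hx0)]
  rfl

theorem ws_bd1 {κ : ℝ} (hκ : 0 < κ) (u : Poly × Poly) (k : Fin 3) : Bd1 (ws κ u k) :=
  ((((isProfA hκ).bd0 _).add ((isProfA hκ).bd1_X _ k)).bd1.add
    (((isProfA hκ).bd1_h1 _).add ((isProfA hκ).bd1_h2 u.1 k))).add
  ((((isProfB hκ).bd0 _).add ((isProfB hκ).bd1_X _ k)).bd1.add
    (((isProfB hκ).bd1_h1 _).add ((isProfB hκ).bd1_h2 u.2 k)))

theorem wv_cusp {κ : ℝ} (hκ : 0 < κ) (u : Poly × Poly) : Cusp (wv κ u) (wg κ u) (ws κ u) where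
  cont := wv_continuous κ u
  dq x hx := (wv_contDiffAt hκ u hx).differentiableAt (by simp)
  dqk k x hx := wv_fderiv hκ u k hx
  dg k x hx := wg_differentiableAt hκ u k hx
  dgk k x hx := wg_fderiv hκ u k hx
  bq := wv_bd0 hκ u
  bg k := wg_bd0 hκ u k
  bs k := ws_bd1 hκ u k

/-- products of functions with a cusp -/
theorem Cusp.mul {q q' : R3 → ℝ} {g g' s s' : Fin 3 → R3 → ℝ} (h : Cusp q g s)
    (h' : Cusp q' g' s') : Cusp (fun x => q x * q' x) (fun k x => g k x * q' x + q x * g' k x)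
      (fun k x => s k x * q' x + 2 * (g k x * g' k x) + q x * s' k x) where
  cont := h.cont.mul h'.cont
  dq x hx := (h.dq x hx).mul (h'.dq x hx)
  dqk k x hx := by
    rw [fderiv_fun_mul (h.dq x hx) (h'.dq x hx)]
    simp only [_root_.add_apply, _root_.smul_apply, smul_eq_mul, h.dqk k x hx, h'.dqk k x hx]
    ring
  dg k x hx := ((h.dg k x hx).mul (h'.dq x hx)).add ((h.dq x hx).mul (h'.dg k x hx))
  dgk k x hx := by
    have d1 : DifferentiableAt ℝ (fun x => g k x * q' x) x := (h.dg k x hx).mul (h'.dq x hx)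
    have d2 : DifferentiableAt ℝ (fun x => q x * g' k x) x := (h.dq x hx).mul (h'.dg k x hx)
    rw [fderiv_fun_add d1 d2,
      fderiv_fun_mul (h.dg k x hx) (h'.dq x hx), fderiv_fun_mul (h.dq x hx) (h'.dg k x hx)]
    simp only [_root_.add_apply, _root_.smul_apply, smul_eq_mul, h.dqk k x hx, h'.dqk k x hx,
      h.dgk k x hx, h'.dgk k x hx]
    ring
  bq := Bd0_mul h.bq h'.bq
  bg k := (Bd0_mul (h.bg k) h'.bq).add (Bd0_mul h.bq (h'.bg k))
  bs k := by
    have e1 := Bd1_mul_Bd0 (h.bs k) h'.bq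
    have e2 := ((Bd0_mul (h.bg k) (h'.bg k)).bd1).const_mul 2
    have e3 := Bd1_mul_Bd0 (h'.bs k) h.bq
    have e4 := (e1.add e2).add e3
    refine ⟨?_, ?_⟩
    · intro x hx
      have := e4.1 x hx
      convert this using 1
      funext y; ring
    · obtain ⟨A, c, hA, hc, hb⟩ := e4.2
      refine ⟨A, c, hA, hc, fun x hx => ?_⟩
      have := hb x hx
      convert this using 2
      ring

/-- the Laplacian of `wv` -/
theorem sum_ws (κ : ℝ) (u : Poly × Poly) {x : R3} (hx : x ≠ 0) :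
    ∑ k, ws κ u k x = κ ^ 2 * wv κ u x - 2 / ‖x‖ * wv κ (Kop κ u) x := by
  have hx0 : ‖x‖ ≠ 0 := norm_ne_zero_iff.2 hx
  have h1 : ∑ k, ws κ u k x = lapG u.1 (hA κ) (hA1 κ) (hA2 κ) x + lapG u.2 (hB κ) (hB1 κ) (hB2 κ) x := by
    simp only [ws, G, lapG, lap, eul, ev_sum, ev_mul, ev_X, ev_add, Derivation.leibniz,
      MvPolynomial.pderiv_X_self, smul_eq_mul, mul_one]
    rw [norm_sq_R3]
    simp only [Fin.sum_univ_three]
    ring
  rw [h1]
  have h2 : ev rsq x = ‖x‖ ^ 2 := by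
    rw [norm_sq_R3, rsq, ev_sum]
    simp only [ev_mul, ev_X]
    refine Finset.sum_congr rfl fun k _ => ?_
    ring
  simp only [lapG, wv, G, Kop, hA, hA1, hA2, hB, hB1, hB2, ev_add, ev_sub, ev_smul, ev_mul, h2]
  have h3 : ev (-((1 / 2 : ℝ) • lap u.1)) x = -(1 / 2 * ev (lap u.1) x) := by
    have : -((1 / 2 : ℝ) • lap u.1) = (-(1 / 2) : ℝ) • lap u.1 := by module
    rw [this, ev_smul]; ring
  rw [h3]
  field_simp
  ring

/-- **P2a**: `IsLap` for the product of `f = wv κ u` and `g = wv κ' w`, with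
`L = 2 ∇f·∇g + f Δg + g Δf`. -/
theorem isLap_mul {κ κ' : ℝ} (hκ : 0 < κ) (hκ' : 0 < κ') (u w : Poly × Poly) :
    H198.IsLap (fun x => wv κ u x * wv κ' w x)
      (fun x => 2 * ∑ k, wg κ u k x * wg κ' w k x
        + (κ ^ 2 * wv κ u x - 2 / ‖x‖ * wv κ (Kop κ u) x) * wv κ' w x
        + wv κ u x * (κ' ^ 2 * wv κ' w x - 2 / ‖x‖ * wv κ' (Kop κ' w) x)) := by
  refine ((wv_cusp hκ u).mul (wv_cusp hκ' w)).isLap fun x hx => ?_
  rw [← sum_ws κ u hx, ← sum_ws κ' w hx, Finset.mul_sum, Finset.sum_mul, Finset.mul_sum,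
    ← Finset.sum_add_distrib, ← Finset.sum_add_distrib]
  refine Finset.sum_congr rfl fun k _ => ?_
  ring

/-- **P2a** for eigenfunctions of hydrogen: `f = wv κ u`, `K u = u` (energy `-κ²/2`). -/
theorem isLap_eig {κ κ' : ℝ} (hκ : 0 < κ) (hκ' : 0 < κ') {u w : Poly × Poly} (hu : Kop κ u = u)
    (hw : Kop κ' w = w) :
    H198.IsLap (fun x => wv κ u x * wv κ' w x)
      (fun x => 2 * ∑ k, wg κ u k x * wg κ' w k x
        + (κ ^ 2 + κ' ^ 2 - 4 / ‖x‖) * (wv κ u x * wv κ' w x)) := by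
  have h := isLap_mul hκ hκ' u w
  rw [hu, hw] at h
  convert h using 2
  ring

end

end Vale.Agent.P370.H993
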