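import Vale.Agent.P363.R.B5.Polar

/-! **POISSON** (block R2b of P370): `∫ ∇u(y) · (x - y) / |x - y|³ dy = 4π u(x)` and
`∫ ∇u · ∇Φ = 4π ∫ u ρ` for `Φ = ρ * 1/|·|`, i.e. `∇Φ(y) = ∫ ρ(x) (x - y)/|x - y|³ dx`. -/

namespace Vale.Agent.P370.H993

open MeasureTheory Set Filter Topology Metric
open Vale.Agent.P363.Stmt Vale.Agent.P363.B5

noncomputable section

/-- The area of the unit sphere. -/
theorem sig_real_univ : (sig : Measure S2).real univ = 4 * Real.pi := by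
  unfold sig
  rw [Measure.toSphere_real_apply_univ, finrank_euclideanSpace_fin]
  rw [Measure.real, EuclideanSpace.volume_ball_fin_three]
  rw [ENNReal.toReal_mul, ENNReal.toReal_pow, ENNReal.toReal_ofReal (by norm_num),
    ENNReal.toReal_ofReal (by positivity)]
  push_cast
  ring

/-- radial functions: integrability -/
theorem integrable_radial {g : ℝ → ℝ} (h : IntegrableOn (fun r => r ^ 2 * g r) (Ioi 0)) :
    Integrable (fun x : R3 => g ‖x‖) := by
  rw [integrable_fun_norm_addHaar]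
  rw [finrank_euclideanSpace_fin]
  simpa using h

/-- the comparison function of the kernel -/
def kerG (r : ℝ) : ℝ := (Ioc (0 : ℝ) 1).indicator (fun r => (r ^ 2)⁻¹) r + ((1 + r) ^ 4)⁻¹

theorem integrable_inv_four : Integrable (fun x : R3 => ((1 + ‖x‖) ^ 4)⁻¹) := by
  have h := integrable_one_add_norm (E := R3) (μ := volume) (r := 4) (by simp; norm_num)
  refine h.congr (Eventually.of_forall fun x => ?_)
  simp only
  rw [Real.rpow_neg (by positivity)]
  norm_cast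

theorem integrable_near : Integrable (fun x : R3 => (Ioc (0 : ℝ) 1).indicator (fun r => (r ^ 2)⁻¹) ‖x‖) := by
  apply integrable_radial (g := (Ioc (0 : ℝ) 1).indicator (fun r => (r ^ 2)⁻¹))
  have h1 : IntegrableOn (fun _ : ℝ => (1 : ℝ)) (Ioc 0 1) := by
    simp
  have h2 : Integrable ((Ioc (0 : ℝ) 1).indicator (fun _ : ℝ => (1 : ℝ))) :=
    (integrable_indicator_iff measurableSet_Ioc).2 h1
  refine (h2.integrableOn (s := Ioi 0)).congr_fun ?_ measurableSet_Ioi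
  intro r hr
  simp only [mem_Ioi] at hr
  by_cases h : r ∈ Ioc (0 : ℝ) 1
  · simp only [indicator_of_mem h]
    field_simp
  · simp only [indicator_of_notMem h, mul_zero]

theorem integrable_kerG : Integrable (fun x : R3 => kerG ‖x‖) :=
  integrable_near.add integrable_inv_four

theorem kerG_nonneg (r : ℝ) (hr : 0 ≤ r) : 0 ≤ kerG r := by
  unfold kerG
  refine add_nonneg (indicator_nonneg (fun r _ => by positivity) _) (by positivity)

/-- the kernel bound: `(1+s)^{-2} r^{-2} ≤ G(r) + 8 (1+s)^{-4}` -/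
theorem ker_le {r s : ℝ} (hr : 0 < r) (hs : 0 ≤ s) :
    ((1 + s) ^ 2)⁻¹ * (r ^ 2)⁻¹ ≤ 8 * (kerG r + ((1 + s) ^ 4)⁻¹) := by
  unfold kerG
  by_cases h : r ∈ Ioc (0 : ℝ) 1
  · rw [indicator_of_mem h]
    have h1 : ((1 + s) ^ 2)⁻¹ ≤ 1 := inv_le_one_of_one_le₀ (by nlinarith)
    have h2 : 0 < (r ^ 2)⁻¹ := by positivity
    have h3 : 0 < ((1 + r) ^ 4)⁻¹ := by positivity
    have h4 : 0 < ((1 + s) ^ 4)⁻¹ := by positivity
    nlinarith
  · rw [indicator_of_notMem h]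
    have h1 : 1 < r := by
      by_contra h'
      exact h ⟨hr, not_lt.1 h'⟩
    have h2 : (r ^ 2)⁻¹ ≤ 4 * ((1 + r) ^ 2)⁻¹ := by
      rw [inv_eq_one_div, ← div_eq_mul_inv, div_le_div_iff₀ (by positivity) (by positivity)]
      nlinarith
    have h3 : ((1 + r) ^ 4)⁻¹ = (((1 + r) ^ 2)⁻¹) ^ 2 := by
      rw [inv_pow, ← pow_mul]
    have h4 : ((1 + s) ^ 4)⁻¹ = (((1 + s) ^ 2)⁻¹) ^ 2 := by
      rw [inv_pow, ← pow_mul]
    rw [h3, h4]
    have h5 : 0 < ((1 + s) ^ 2)⁻¹ := by positivity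
    have h6 : 0 < ((1 + r) ^ 2)⁻¹ := by positivity
    nlinarith [sq_nonneg (((1 + s) ^ 2)⁻¹ - ((1 + r) ^ 2)⁻¹)]

/-- the kernel of the electric field -/
def fker (u' : R3 → R3 →L[ℝ] ℝ) (x y : R3) : ℝ := u' y (x - y) / ‖x - y‖ ^ 3

theorem fker_le {u' : R3 → R3 →L[ℝ] ℝ} {M : ℝ} (hd : ∀ y, ‖u' y‖ ≤ M / (1 + ‖y‖) ^ 2) (x y : R3) :
    |fker u' x y| ≤ 8 * M * (kerG ‖x - y‖ + ((1 + ‖y‖) ^ 4)⁻¹) := by
  have hM : 0 ≤ M := by
    have := (norm_nonneg _).trans (hd 0)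
    simpa using this
  unfold fker
  by_cases h : x = y
  · subst h
    simp only [sub_self, map_zero, norm_zero, zero_div, abs_zero]
    have := kerG_nonneg 0 le_rfl
    positivity
  · have hr : 0 < ‖x - y‖ := norm_pos_iff.2 (sub_ne_zero.2 h)
    rw [abs_div, abs_of_pos (by positivity : 0 < ‖x - y‖ ^ 3)]
    have h1 : |u' y (x - y)| ≤ M / (1 + ‖y‖) ^ 2 * ‖x - y‖ := by
      have := (u' y).le_opNorm (x - y)
      rw [Real.norm_eq_abs] at this
      exact this.trans (mul_le_mul_of_nonneg_right (hd y) (norm_nonneg _))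
    have h2 := ker_le hr (norm_nonneg y)
    calc |u' y (x - y)| / ‖x - y‖ ^ 3 ≤ (M / (1 + ‖y‖) ^ 2 * ‖x - y‖) / ‖x - y‖ ^ 3 := by
          gcongr
      _ = M * (((1 + ‖y‖) ^ 2)⁻¹ * (‖x - y‖ ^ 2)⁻¹) := by
          field_simp
      _ ≤ M * (8 * (kerG ‖x - y‖ + ((1 + ‖y‖) ^ 4)⁻¹)) := by gcongr
      _ = _ := by ring

theorem measurable_fker {u' : R3 → R3 →L[ℝ] ℝ} (hc : Continuous u') :
    Measurable fun p : R3 × R3 => fker u' p.1 p.2 := by
  unfold fker
  have h1 : Continuous fun p : R3 × R3 => u' p.2 (p.1 - p.2) :=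
    (hc.comp continuous_snd).clm_apply (continuous_fst.sub continuous_snd)
  have h2 : Continuous fun p : R3 × R3 => ‖p.1 - p.2‖ ^ 3 := by fun_prop
  exact h1.measurable.div h2.measurable

theorem integrable_fker {u' : R3 → R3 →L[ℝ] ℝ} (hc : Continuous u') {M : ℝ}
    (hd : ∀ y, ‖u' y‖ ≤ M / (1 + ‖y‖) ^ 2) (x : R3) : Integrable (fun y => fker u' x y) := by
  have h1 : Integrable fun y : R3 => kerG ‖x - y‖ := by
    have := integrable_kerG.comp_sub_left x
    exact this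
  refine ((h1.add integrable_inv_four).const_mul (8 * M)).mono'
    ((measurable_fker hc).comp measurable_prodMk_left).aestronglyMeasurable
    (Eventually.of_forall fun y => ?_)
  exact fker_le hd x y

/-- one dimensional fundamental theorem along a ray -/
theorem ray {u : R3 → ℝ} {u' : R3 → R3 →L[ℝ] ℝ} (hu : ∀ y, HasFDerivAt u (u' y) y)
    (hc : Continuous u') {M : ℝ} (hd : ∀ y, ‖u' y‖ ≤ M / (1 + ‖y‖) ^ 2)
    (h0 : Tendsto u (cocompact R3) (𝓝 0)) (x : R3) (w : S2) :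
    ∫ r in Ioi (0 : ℝ), u' (x + r • (w : R3)) (w : R3) = - u x := by
  have hw : ‖(w : R3)‖ = 1 := by simp
  have hM : 0 ≤ M := by
    have := (norm_nonneg _).trans (hd 0)
    simpa using this
  have hder : ∀ r : ℝ, HasDerivAt (fun r : ℝ => u (x + r • (w : R3))) (u' (x + r • (w : R3)) (w : R3)) r := by
    intro r
    have h1 : HasDerivAt (fun r : ℝ => x + r • (w : R3)) (w : R3) r := by
      have := ((hasDerivAt_id r).smul_const (w : R3)).const_add x
      simpa using this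
    exact (hu _).comp_hasDerivAt r h1
  have hint : IntegrableOn (fun r : ℝ => u' (x + r • (w : R3)) (w : R3)) (Ioi 0) := by
    have h1 : Integrable fun r : ℝ => (1 + ‖r‖) ^ (-2 : ℝ) :=
      integrable_one_add_norm (by simp)
    have hcont : Continuous fun r : ℝ => u' (x + r • (w : R3)) (w : R3) := by
      have : Continuous fun r : ℝ => x + r • (w : R3) := by fun_prop
      exact (hc.comp this).clm_apply continuous_const
    refine ((h1.const_mul (M * (1 + ‖x‖) ^ 2)).integrableOn).mono' hcont.aestronglyMeasurable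
      ((ae_restrict_iff' measurableSet_Ioi).2 (Eventually.of_forall fun r hr => ?_))
    simp only [mem_Ioi] at hr
    have h2 : ‖u' (x + r • (w : R3)) (w : R3)‖ ≤ M / (1 + ‖x + r • (w : R3)‖) ^ 2 := by
      have := (u' (x + r • (w : R3))).le_opNorm (w : R3)
      rw [hw, mul_one] at this
      exact this.trans (hd _)
    refine h2.trans ?_
    have h3 : 1 + r ≤ (1 + ‖x‖) * (1 + ‖x + r • (w : R3)‖) := by
      have h4 : r = ‖r • (w : R3)‖ := by rw [norm_smul, hw, mul_one, Real.norm_eq_abs, abs_of_pos hr]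
      have h5 : ‖r • (w : R3)‖ ≤ ‖x + r • (w : R3)‖ + ‖x‖ := by
        have := norm_sub_le (x + r • (w : R3)) x
        simpa using this
      nlinarith [norm_nonneg x, norm_nonneg (x + r • (w : R3))]
    rw [Real.rpow_neg (by positivity), Real.norm_eq_abs, abs_of_pos hr]
    have h6 : (1 + r) ^ (2 : ℝ) = (1 + r) ^ 2 := by norm_cast
    rw [h6, ← div_eq_mul_inv, div_le_div_iff₀ (by positivity) (by positivity)]
    have h7 : (1 + r) ^ 2 ≤ ((1 + ‖x‖) * (1 + ‖x + r • (w : R3)‖)) ^ 2 :=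
      pow_le_pow_left₀ (by positivity) h3 2
    calc M * (1 + r) ^ 2 ≤ M * ((1 + ‖x‖) * (1 + ‖x + r • (w : R3)‖)) ^ 2 := by gcongr
      _ = _ := by ring
  have hlim : Tendsto (fun r : ℝ => u (x + r • (w : R3))) atTop (𝓝 0) := by
    refine h0.comp ?_
    rw [← Metric.cobounded_eq_cocompact, ← tendsto_norm_atTop_iff_cobounded]
    refine tendsto_atTop_mono' atTop ?_ (tendsto_atTop_add_const_right atTop (-‖x‖) tendsto_id)
    filter_upwards [eventually_gt_atTop 0] with r hr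
    have h4 : r = ‖r • (w : R3)‖ := by rw [norm_smul, hw, mul_one, Real.norm_eq_abs, abs_of_pos hr]
    have h5 : ‖r • (w : R3)‖ ≤ ‖x + r • (w : R3)‖ + ‖x‖ := by
      have := norm_sub_le (x + r • (w : R3)) x
      simpa using this
    simp only [id]
    linarith
  have := integral_Ioi_of_hasDerivAt_of_tendsto (a := 0) (hder 0).continuousAt.continuousWithinAt
    (fun r _ => hder r) hint hlim
  rw [this]
  simp

/-- **Newton's delta identity**: `∫ ∇u(y) · (x - y) / |x - y|³ dy = 4π u(x)`. -/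
theorem newton_delta {u : R3 → ℝ} {u' : R3 → R3 →L[ℝ] ℝ} (hu : ∀ y, HasFDerivAt u (u' y) y)
    (hc : Continuous u') {M : ℝ} (hd : ∀ y, ‖u' y‖ ≤ M / (1 + ‖y‖) ^ 2)
    (h0 : Tendsto u (cocompact R3) (𝓝 0)) (x : R3) :
    ∫ y, u' y (x - y) / ‖x - y‖ ^ 3 = 4 * Real.pi * u x := by
  have hI := integrable_fker hc hd x
  have e1 : ∫ y, u' y (x - y) / ‖x - y‖ ^ 3 = ∫ z, fker u' x (x + z) :=
    (integral_add_left_eq_self (fun y => fker u' x y) x).symm
  have hI2 : Integrable fun z => fker u' x (x + z) := hI.comp_add_left x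
  rw [e1, integral_pol, integral_prod _ (integrable_pol hI2)]
  have e2 : ∀ w : S2, ∫ r : Ioi (0 : ℝ), fker u' x (x + pol (w, r)) ∂rad = u x := by
    intro w
    have hw : ‖(w : R3)‖ = 1 := by simp
    have := integral_rad (fun r => fker u' x (x + r • (w : R3)))
    rw [show (∫ r : Ioi (0 : ℝ), fker u' x (x + pol (w, r)) ∂rad) =
      ∫ r : Ioi (0 : ℝ), fker u' x (x + (r : ℝ) • (w : R3)) ∂rad from rfl, this]
    have h1 : ∫ r in Ioi (0 : ℝ), r ^ 2 * fker u' x (x + r • (w : R3)) =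
        ∫ r in Ioi (0 : ℝ), - (u' (x + r • (w : R3)) (w : R3)) := by
      refine setIntegral_congr_fun measurableSet_Ioi fun r hr => ?_
      simp only [mem_Ioi] at hr
      simp only [fker]
      rw [sub_add_cancel_left, norm_neg, norm_smul, hw, mul_one, Real.norm_eq_abs, abs_of_pos hr,
        map_neg, map_smul, smul_eq_mul]
      field_simp
    rw [h1, integral_neg, ray hu hc hd h0 x w, neg_neg]
  simp only [e2]
  rw [integral_const, sig_real_univ, smul_eq_mul]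

/-- the product integrability. -/
theorem integrable_prod {u' : R3 → R3 →L[ℝ] ℝ} (hc : Continuous u') {M : ℝ}
    (hd : ∀ y, ‖u' y‖ ≤ M / (1 + ‖y‖) ^ 2) {ρ : R3 → ℝ} (hρ : Integrable ρ) :
    Integrable (fun p : R3 × R3 => ρ p.2 * (u' p.1 (p.2 - p.1) / ‖p.2 - p.1‖ ^ 3))
      (volume.prod volume) := by
  have h1 : Integrable (fun p : R3 × R3 => |ρ p.2| * kerG ‖p.1 - p.2‖) (volume.prod volume) :=
    hρ.abs.convolution_integrand (ContinuousLinearMap.mul ℝ ℝ) integrable_kerG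
  have h2 : Integrable (fun p : R3 × R3 => ((1 + ‖p.1‖) ^ 4)⁻¹ * |ρ p.2|) (volume.prod volume) :=
    integrable_inv_four.mul_prod hρ.abs
  have hm : AEStronglyMeasurable (fun p : R3 × R3 => ρ p.2 * (u' p.1 (p.2 - p.1) / ‖p.2 - p.1‖ ^ 3))
      (volume.prod volume) := by
    refine (hρ.aestronglyMeasurable.comp_snd).mul ?_
    exact ((measurable_fker hc).comp measurable_swap).aestronglyMeasurable
  refine ((h1.add h2).const_mul (8 * M)).mono' hm (Eventually.of_forall fun p => ?_)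
  have h3 := fker_le hd p.2 p.1
  rw [Real.norm_eq_abs, abs_mul]
  have h4 : |u' p.1 (p.2 - p.1) / ‖p.2 - p.1‖ ^ 3| ≤
      8 * M * (kerG ‖p.1 - p.2‖ + ((1 + ‖p.1‖) ^ 4)⁻¹) := by
    rw [norm_sub_rev p.1 p.2]
    exact h3
  calc |ρ p.2| * |u' p.1 (p.2 - p.1) / ‖p.2 - p.1‖ ^ 3| ≤
      |ρ p.2| * (8 * M * (kerG ‖p.1 - p.2‖ + ((1 + ‖p.1‖) ^ 4)⁻¹)) := by gcongr
    _ = _ := by
      simp only [Pi.add_apply]
      ring

/-- **POISSON**: `∫ ∇u · ∇Φ = 4π ∫ u ρ`, as a double integral. -/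
theorem poisson {u : R3 → ℝ} {u' : R3 → R3 →L[ℝ] ℝ} (hu : ∀ y, HasFDerivAt u (u' y) y)
    (hc : Continuous u') {M : ℝ} (hd : ∀ y, ‖u' y‖ ≤ M / (1 + ‖y‖) ^ 2)
    (h0 : Tendsto u (cocompact R3) (𝓝 0)) {ρ : R3 → ℝ} (hρ : Integrable ρ) :
    ∫ y, ∫ x, ρ x * (u' y (x - y) / ‖x - y‖ ^ 3) = 4 * Real.pi * ∫ x, u x * ρ x := by
  rw [integral_integral_swap (f := fun y x => ρ x * (u' y (x - y) / ‖x - y‖ ^ 3))
    (integrable_prod hc hd hρ)]
  rw [← integral_const_mul]
  congr 1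
  funext x
  rw [integral_const_mul, newton_delta hu hc hd h0 x]
  ring

/-- the field `∫ ρ(x) (x - y)/|x - y|³ dx` converges absolutely for bounded integrable `ρ`. -/
theorem integrable_field {ρ : R3 → ℝ} (hρ : Integrable ρ) {K : ℝ} (hK : ∀ x, |ρ x| ≤ K) (y : R3) :
    Integrable (fun x => (ρ x / ‖x - y‖ ^ 3) • (x - y)) := by
  have h1 : Integrable fun x : R3 => (Ioc (0 : ℝ) 1).indicator (fun r => (r ^ 2)⁻¹) ‖x - y‖ := by
    have := integrable_near.comp_sub_right y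
    exact this
  have hm : AEStronglyMeasurable (fun x => (ρ x / ‖x - y‖ ^ 3) • (x - y)) volume := by
    have h2 : Measurable fun x : R3 => (‖x - y‖ ^ 3)⁻¹ := by fun_prop
    have h3 : Continuous fun x : R3 => x - y := by fun_prop
    simp only [div_eq_mul_inv]
    exact (hρ.aestronglyMeasurable.mul h2.aestronglyMeasurable).smul h3.aestronglyMeasurable
  refine ((h1.const_mul K).add hρ.abs).mono' hm (Eventually.of_forall fun x => ?_)
  simp only [Pi.add_apply]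
  have hK0 : 0 ≤ K := (abs_nonneg _).trans (hK x)
  rw [norm_smul, norm_div, norm_pow, norm_norm, Real.norm_eq_abs]
  by_cases h : ‖x - y‖ ∈ Ioc (0 : ℝ) 1
  · rw [indicator_of_mem h]
    have h4 : |ρ x| / ‖x - y‖ ^ 3 * ‖x - y‖ = |ρ x| * (‖x - y‖ ^ 2)⁻¹ := by
      have := h.1
      field_simp
    rw [h4]
    have h5 : |ρ x| * (‖x - y‖ ^ 2)⁻¹ ≤ K * (‖x - y‖ ^ 2)⁻¹ := by
      gcongr
      exact hK x
    have := abs_nonneg (ρ x)
    linarith
  · rw [indicator_of_notMem h, mul_zero, zero_add]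
    by_cases h0 : ‖x - y‖ = 0
    · rw [h0]
      simp
    · have h1 : 1 < ‖x - y‖ := by
        by_contra h'
        exact h ⟨lt_of_le_of_ne (norm_nonneg _) (Ne.symm h0), not_lt.1 h'⟩
      have h4 : |ρ x| / ‖x - y‖ ^ 3 * ‖x - y‖ = |ρ x| / ‖x - y‖ ^ 2 := by
        field_simp
      rw [h4]
      exact div_le_self (abs_nonneg _) (one_le_pow₀ h1.le)

/-- the derivative of `u` applied to the field of `ρ` -/
theorem apply_field {ρ : R3 → ℝ} (hρ : Integrable ρ) {K : ℝ} (hK : ∀ x, |ρ x| ≤ K) (y : R3)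
    (L : R3 →L[ℝ] ℝ) :
    L (∫ x, (ρ x / ‖x - y‖ ^ 3) • (x - y)) = ∫ x, ρ x * (L (x - y) / ‖x - y‖ ^ 3) := by
  rw [← L.integral_comp_comm (integrable_field hρ hK y)]
  congr 1
  funext x
  rw [map_smul, smul_eq_mul]
  ring

/-- **POISSON**: `∫ ∇u · ∇Φ = 4π ∫ u ρ`, `∇Φ(y) = ∫ ρ(x) (x - y)/|x - y|³ dx`. -/
theorem poisson_field {u : R3 → ℝ} {u' : R3 → R3 →L[ℝ] ℝ} (hu : ∀ y, HasFDerivAt u (u' y) y)
    (hc : Continuous u') {M : ℝ} (hd : ∀ y, ‖u' y‖ ≤ M / (1 + ‖y‖) ^ 2)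
    (h0 : Tendsto u (cocompact R3) (𝓝 0)) {ρ : R3 → ℝ} (hρ : Integrable ρ) {K : ℝ}
    (hK : ∀ x, |ρ x| ≤ K) :
    Integrable (fun y => u' y (∫ x, (ρ x / ‖x - y‖ ^ 3) • (x - y))) ∧
    ∫ y, u' y (∫ x, (ρ x / ‖x - y‖ ^ 3) • (x - y)) = 4 * Real.pi * ∫ x, u x * ρ x := by
  simp only [apply_field hρ hK]
  exact ⟨(integrable_prod hc hd hρ).integral_prod_left, poisson hu hc hd h0 hρ⟩

/-- a decay bound gives the limit at infinity. -/
theorem tendsto_of_bound {u : R3 → ℝ} {M : ℝ} (h : ∀ y, |u y| ≤ M / (1 + ‖y‖)) :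
    Tendsto u (cocompact R3) (𝓝 0) := by
  have h1 : Tendsto (fun y : R3 => 1 + ‖y‖) (cocompact R3) atTop :=
    tendsto_atTop_add_const_left _ _ (tendsto_norm_cocompact_atTop)
  have h2 : Tendsto (fun y : R3 => M / (1 + ‖y‖)) (cocompact R3) (𝓝 0) := h1.const_div_atTop M
  exact squeeze_zero_norm (fun y => by rw [Real.norm_eq_abs]; exact h y) h2

end

end Vale.Agent.P370.H993
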