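import Vale.Agent.P363.H849.Space
import Vale.Agent.P370.H993.Poisson

/-! Integrability of exponentially decaying functions times the kernels `‖x - z‖`, `1/‖x - z‖`,
`1/‖x - z‖²`. -/

namespace Vale.Agent.P370.H993

open MeasureTheory Set Filter Topology
open Vale.Agent.P363.H849 (Bd0 Bd1 R3 aesm_of_continuousAt ae_ne_zero)

noncomputable section

theorem pow_le_exp (m : ℕ) {c : ℝ} (hc : 0 < c) : ∃ B : ℝ, 0 ≤ B ∧ ∀ r : ℝ, 0 ≤ r →
    (1 + r) ^ m ≤ B * Real.exp (c * r) := by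
  refine ⟨m.factorial * (1 / c) ^ m * Real.exp c, by positivity, fun r hr => ?_⟩
  have h := Real.pow_div_factorial_le_exp (x := c * (1 + r)) (by positivity) m
  rw [div_le_iff₀ (by positivity)] at h
  have h1 : Real.exp (c * (1 + r)) = Real.exp c * Real.exp (c * r) := by
    rw [← Real.exp_add]; ring_nf
  rw [h1, mul_pow] at h
  have h2 : (1 + r) ^ m = (1 / c) ^ m * (c ^ m * (1 + r) ^ m) := by
    rw [← mul_assoc, ← mul_pow, one_div_mul_cancel hc.ne', one_pow, one_mul]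
  rw [h2]
  calc (1 / c) ^ m * (c ^ m * (1 + r) ^ m)
      ≤ (1 / c) ^ m * (Real.exp c * Real.exp (c * r) * m.factorial) := by gcongr
    _ = _ := by ring

theorem Bd0_mul_growth {φ w : R3 → ℝ} (h : Bd0 φ) (hw : ∀ x, x ≠ 0 → ContinuousAt w x) (m : ℕ)
    {B : ℝ} (hB : ∀ x, |w x| ≤ B * (1 + ‖x‖) ^ m) : Bd0 (fun x => w x * φ x) := by
  obtain ⟨hc, A, c, hA, hc0, hb⟩ := h
  obtain ⟨D, hD, hd⟩ := pow_le_exp m (c := c / 2) (by positivity)
  have hB0 : 0 ≤ B := by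
    have := (abs_nonneg _).trans (hB 0)
    simpa using this
  refine ⟨fun x hx => (hw x hx).mul (hc x hx), B * D * A, c / 2, by positivity, by positivity,
    fun x hx => ?_⟩
  rw [abs_mul]
  calc |w x| * |φ x| ≤ (B * (D * Real.exp (c / 2 * ‖x‖))) * (A * Real.exp (-c * ‖x‖)) := by
        refine mul_le_mul ((hB x).trans ?_) (hb x hx) (abs_nonneg _) (by positivity)
        exact mul_le_mul_of_nonneg_left (hd _ (norm_nonneg _)) hB0
    _ = B * D * A * (Real.exp (c / 2 * ‖x‖) * Real.exp (-c * ‖x‖)) := by ring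
    _ = _ := by rw [← Real.exp_add]; ring_nf

theorem Bd1_mul_growth {φ w : R3 → ℝ} (h : Bd1 φ) (hw : ∀ x, x ≠ 0 → ContinuousAt w x) (m : ℕ)
    {B : ℝ} (hB : ∀ x, |w x| ≤ B * (1 + ‖x‖) ^ m) : Bd1 (fun x => w x * φ x) := by
  obtain ⟨hc, A, c, hA, hc0, hb⟩ := h
  obtain ⟨D, hD, hd⟩ := pow_le_exp m (c := c / 2) (by positivity)
  have hB0 : 0 ≤ B := by
    have := (abs_nonneg _).trans (hB 0)
    simpa using this
  refine ⟨fun x hx => (hw x hx).mul (hc x hx), B * D * A, c / 2, by positivity, by positivity,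
    fun x hx => ?_⟩
  rw [abs_mul]
  calc |w x| * |φ x| ≤ (B * (D * Real.exp (c / 2 * ‖x‖))) * (A * Real.exp (-c * ‖x‖) / ‖x‖) := by
        refine mul_le_mul ((hB x).trans ?_) (hb x hx) (abs_nonneg _) (by positivity)
        exact mul_le_mul_of_nonneg_left (hd _ (norm_nonneg _)) hB0
    _ = B * D * A * (Real.exp (c / 2 * ‖x‖) * Real.exp (-c * ‖x‖)) / ‖x‖ := by ring
    _ = _ := by rw [← Real.exp_add]; ring_nf

theorem Bd0_mul {φ ψ : R3 → ℝ} (h : Bd0 φ) (h' : Bd0 ψ) : Bd0 (fun x => φ x * ψ x) := by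
  obtain ⟨hc, A, c, hA, hc0, hb⟩ := h
  obtain ⟨hc', A', c', hA', hc0', hb'⟩ := h'
  refine ⟨fun x hx => (hc x hx).mul (hc' x hx), A * A', c + c', by positivity, by positivity,
    fun x hx => ?_⟩
  rw [abs_mul]
  calc |φ x| * |ψ x| ≤ (A * Real.exp (-c * ‖x‖)) * (A' * Real.exp (-c' * ‖x‖)) :=
        mul_le_mul (hb x hx) (hb' x hx) (abs_nonneg _) (by positivity)
    _ = A * A' * (Real.exp (-c * ‖x‖) * Real.exp (-c' * ‖x‖)) := by ring
    _ = _ := by rw [← Real.exp_add]; ring_nf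

theorem Bd1_mul_Bd0 {φ ψ : R3 → ℝ} (h : Bd1 φ) (h' : Bd0 ψ) : Bd1 (fun x => φ x * ψ x) := by
  obtain ⟨hc, A, c, hA, hc0, hb⟩ := h
  obtain ⟨hc', A', c', hA', hc0', hb'⟩ := h'
  refine ⟨fun x hx => (hc x hx).mul (hc' x hx), A * A', c + c', by positivity, by positivity,
    fun x hx => ?_⟩
  rw [abs_mul]
  calc |φ x| * |ψ x| ≤ (A * Real.exp (-c * ‖x‖) / ‖x‖) * (A' * Real.exp (-c' * ‖x‖)) :=
        mul_le_mul (hb x hx) (hb' x hx) (abs_nonneg _) (by positivity)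
    _ = A * A' * (Real.exp (-c * ‖x‖) * Real.exp (-c' * ‖x‖)) / ‖x‖ := by ring
    _ = _ := by rw [← Real.exp_add]; ring_nf

theorem aesm_div {φ ψ : R3 → ℝ} (hφ : AEStronglyMeasurable φ volume) (hψ : Continuous ψ) :
    AEStronglyMeasurable (fun x => φ x / ψ x) volume := by
  simp only [div_eq_mul_inv]
  exact hφ.mul hψ.measurable.inv.aestronglyMeasurable

/-- `e^{-c r}` is integrable -/
theorem integrable_exp {c : ℝ} (hc : 0 < c) : Integrable (fun x : R3 => Real.exp (-c * ‖x‖)) := by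
  have := (Vale.Agent.P363.H849.integrable_rad (f := fun y => Real.exp (-c * y))).2
  exact this (Vale.Agent.P363.H849.integrableOn_pow_exp 2 hc)

/-- `e^{-c r} / ‖x - z‖²` is integrable -/
theorem integrable_exp_div_sq {c : ℝ} (hc : 0 < c) (z : R3) :
    Integrable (fun x : R3 => Real.exp (-c * ‖x‖) / ‖x - z‖ ^ 2) := by
  have h1 : Integrable fun x : R3 => (Ioc (0 : ℝ) 1).indicator (fun r => (r ^ 2)⁻¹) ‖x - z‖ := by
    have := integrable_near.comp_sub_right z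
    exact this
  have hm : AEStronglyMeasurable (fun x : R3 => Real.exp (-c * ‖x‖) / ‖x - z‖ ^ 2) volume := by
    have h2 : Continuous fun x : R3 => Real.exp (-c * ‖x‖) := by fun_prop
    have h3 : Continuous fun x : R3 => ‖x - z‖ ^ 2 := by fun_prop
    exact (h2.measurable.div h3.measurable).aestronglyMeasurable
  refine (h1.add (integrable_exp hc)).mono' hm (Eventually.of_forall fun x => ?_)
  simp only [Pi.add_apply]
  have he : 0 < Real.exp (-c * ‖x‖) := Real.exp_pos _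
  have he1 : Real.exp (-c * ‖x‖) ≤ 1 := Real.exp_le_one_iff.2 (by nlinarith [norm_nonneg x])
  rw [Real.norm_eq_abs, abs_of_nonneg (by positivity)]
  by_cases h : ‖x - z‖ ∈ Ioc (0 : ℝ) 1
  · rw [indicator_of_mem h]
    have h4 : Real.exp (-c * ‖x‖) / ‖x - z‖ ^ 2 ≤ 1 * (‖x - z‖ ^ 2)⁻¹ := by
      rw [div_eq_mul_inv]
      gcongr
    linarith
  · rw [indicator_of_notMem h, zero_add]
    by_cases h0 : ‖x - z‖ = 0
    · rw [h0]; simp; positivity
    · have h1 : 1 < ‖x - z‖ := by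
        by_contra h'
        exact h ⟨lt_of_le_of_ne (norm_nonneg _) (Ne.symm h0), not_lt.1 h'⟩
      exact div_le_self he.le (one_le_pow₀ h1.le)

theorem Bd0_integrable {φ : R3 → ℝ} (h : Bd0 φ) : Integrable φ := by
  obtain ⟨hc, A, c, hA, hc0, hb⟩ := h
  refine ((integrable_exp hc0).const_mul A).mono' (aesm_of_continuousAt hc) ?_
  filter_upwards [ae_ne_zero] with x hx
  exact hb x hx

theorem Bd0_integrable_sq {φ : R3 → ℝ} (h : Bd0 φ) (z : R3) :
    Integrable (fun x => φ x / ‖x - z‖ ^ 2) := by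
  obtain ⟨hc, A, c, hA, hc0, hb⟩ := h
  have h3 : Continuous fun x : R3 => ‖x - z‖ ^ 2 := by fun_prop
  refine ((integrable_exp_div_sq hc0 z).const_mul A).mono'
    (aesm_div (aesm_of_continuousAt hc) h3) ?_
  filter_upwards [ae_ne_zero] with x hx
  rw [Real.norm_eq_abs, abs_div, abs_of_nonneg (by positivity : (0:ℝ) ≤ ‖x - z‖ ^ 2), mul_div_assoc']
  gcongr
  exact hb x hx

/-- a `Bd1` function divided by `‖x - z‖` is integrable -/
theorem Bd1_integrable_div {φ : R3 → ℝ} (h : Bd1 φ) (z : R3) :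
    Integrable (fun x => φ x / ‖x - z‖) := by
  obtain ⟨hc, A, c, hA, hc0, hb⟩ := h
  have h3 : Continuous fun x : R3 => ‖x - z‖ := by fun_prop
  have i1 := integrable_exp_div_sq hc0 z
  have i2 := integrable_exp_div_sq hc0 0
  refine ((i1.add i2).const_mul A).mono'
    (aesm_div (aesm_of_continuousAt hc) h3) ?_
  filter_upwards [ae_ne_zero] with x hx
  rw [Real.norm_eq_abs, abs_div, abs_norm, Pi.add_apply, sub_zero]
  have hx0 : 0 < ‖x‖ := norm_pos_iff.2 hx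
  have he : 0 < Real.exp (-c * ‖x‖) := Real.exp_pos _
  by_cases h0 : ‖x - z‖ = 0
  · rw [h0]; simp; positivity
  · have h1 : 0 < ‖x - z‖ := lt_of_le_of_ne (norm_nonneg _) (Ne.symm h0)
    have h2 : 1 / ‖x‖ * (1 / ‖x - z‖) ≤ (1 / ‖x - z‖) ^ 2 + (1 / ‖x‖) ^ 2 := by
      nlinarith [sq_nonneg (1 / ‖x‖ - 1 / ‖x - z‖), sq_nonneg (1 / ‖x‖), sq_nonneg (1 / ‖x - z‖)]
    calc |φ x| / ‖x - z‖ ≤ (A * Real.exp (-c * ‖x‖) / ‖x‖) / ‖x - z‖ := by
          gcongr
          exact hb x hx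
      _ = A * Real.exp (-c * ‖x‖) * (1 / ‖x‖ * (1 / ‖x - z‖)) := by field_simp
      _ ≤ A * Real.exp (-c * ‖x‖) * ((1 / ‖x - z‖) ^ 2 + (1 / ‖x‖) ^ 2) := by gcongr
      _ = _ := by field_simp

theorem Bd1_integrable {φ : R3 → ℝ} (h : Bd1 φ) : Integrable φ := by
  have h2 : Bd1 (fun x => ‖x‖ * φ x) := Bd1_mul_growth h
    (fun x _ => continuous_norm.continuousAt) 1 (B := 1) (fun x => by
      rw [abs_norm]; simp)
  have h1 := Bd1_integrable_div h2 0
  refine h1.congr ?_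
  filter_upwards [ae_ne_zero] with x hx
  have hx0 : ‖x‖ ≠ 0 := norm_ne_zero_iff.2 hx
  rw [sub_zero]
  field_simp

theorem Bd0_integrable_div {φ : R3 → ℝ} (h : Bd0 φ) (z : R3) :
    Integrable (fun x => φ x / ‖x - z‖) := Bd1_integrable_div h.bd1 z

theorem norm_sub_growth (z x : R3) : |‖x - z‖| ≤ (1 + ‖z‖) * (1 + ‖x‖) ^ 1 := by
  rw [abs_norm, pow_one]
  have := norm_sub_le x z
  nlinarith [norm_nonneg x, norm_nonneg z]

theorem Bd1_mul_dist {φ : R3 → ℝ} (h : Bd1 φ) (z : R3) : Bd1 (fun x => ‖x - z‖ * φ x) :=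
  Bd1_mul_growth h (fun x _ => by fun_prop) 1 (norm_sub_growth z)

theorem Bd0_mul_dist {φ : R3 → ℝ} (h : Bd0 φ) (z : R3) : Bd0 (fun x => ‖x - z‖ * φ x) :=
  Bd0_mul_growth h (fun x _ => by fun_prop) 1 (norm_sub_growth z)

/-- a `Bd0` function tends to zero at infinity -/
theorem Bd0_tendsto {φ : R3 → ℝ} (h : Bd0 φ) : Tendsto φ (cocompact R3) (𝓝 0) := by
  obtain ⟨hc, A, c, hA, hc0, hb⟩ := h
  have h1 : Tendsto (fun x : R3 => A * Real.exp (-c * ‖x‖)) (cocompact R3) (𝓝 0) := by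
    have h2 : Tendsto (fun x : R3 => -c * ‖x‖) (cocompact R3) atBot :=
      (tendsto_norm_cocompact_atTop).const_mul_atTop_of_neg (by linarith)
    have h3 := (Real.tendsto_exp_atBot.comp h2).const_mul A
    simpa using h3
  have h4 : ∀ᶠ x in cocompact R3, ‖φ x‖ ≤ A * Real.exp (-c * ‖x‖) := by
    have : ∀ᶠ x : R3 in cocompact R3, x ≠ 0 := by
      have := (isCompact_singleton (x := (0 : R3))).compl_mem_cocompact
      filter_upwards [this] with x hx
      simpa using hx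
    filter_upwards [this] with x hx
    exact hb x hx
  exact squeeze_zero_norm' h4 h1

end

end Vale.Agent.P370.H993
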