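import Vale.Agent.P363.Stmt

/-! Integral of a directional derivative vanishes, for functions tending to zero at infinity with
integrable directional derivative, allowing a countable exceptional set (dimension at least two);
extension of `P363.R.H10.Div` (one exceptional point). -/

namespace Vale.Agent.P370.H993

open MeasureTheory Measure Module Topology Filter Set

variable {E : Type*} [NormedAddCommGroup E] [NormedSpace ℝ E] [MeasurableSpace E]

lemma lineDeriv_zero_aux1 {μ : Measure E} [SigmaFinite μ] [NullSingletonClass μ]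
    {f f' : E × ℝ → ℝ} {S : Set (E × ℝ)} (hS : S.Countable)
    (hf' : Integrable f' (μ.prod volume))
    (hf : ∀ x : E × ℝ, x ∉ S → HasLineDerivAt ℝ f (f' x) x (0, 1))
    (h0 : Tendsto f (cocompact (E × ℝ)) (𝓝 0)) :
    ∫ x, f' x ∂(μ.prod volume) = 0 := by
  rw [integral_prod _ hf']
  have key : ∀ᵐ x ∂μ, ∫ t, f' (x, t) = 0 := by
    have hne : ∀ᵐ x ∂μ, x ∉ Prod.fst '' S := by
      have : μ (Prod.fst '' S) = 0 := (hS.image _).measure_zero μ
      exact measure_eq_zero_iff_ae_notMem.1 this
    filter_upwards [hf'.prod_right_ae, hne] with x hx hx0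
    have hd : ∀ t, HasDerivAt (fun s => f (x, s)) (f' (x, t)) t := by
      intro t
      have hxt : ((x, t) : E × ℝ) ∉ S := by
        intro h
        exact hx0 ⟨(x, t), h, rfl⟩
      have h1 := hf (x, t) hxt
      convert! h1.scomp_of_eq t ((hasDerivAt_id t).add (hasDerivAt_const t (-t)))
        (by simp) <;> simp
    have hemb : Tendsto (fun t : ℝ => ((x, t) : E × ℝ)) (cocompact ℝ) (cocompact (E × ℝ)) := by
      have hcl : IsClosedEmbedding (fun t : ℝ => ((x, t) : E × ℝ)) := by
        refine IsClosedEmbedding.of_continuous_injective_isClosedMap (by fun_prop)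
          (fun a b h => by simpa using congrArg Prod.snd h) ?_
        intro s hs
        have : (fun t : ℝ => ((x, t) : E × ℝ)) '' s = {x} ×ˢ s := by
          ext ⟨a, b⟩; simp [eq_comm, and_comm]
        rw [this]
        exact isClosed_singleton.prod hs
      exact hcl.tendsto_cocompact
    have hb : Tendsto (fun t => f (x, t)) atBot (𝓝 0) :=
      h0.comp (hemb.mono_left atBot_le_cocompact)
    have ht : Tendsto (fun t => f (x, t)) atTop (𝓝 0) :=
      h0.comp (hemb.mono_left atTop_le_cocompact)
    simpa using integral_of_hasDerivAt_of_tendsto hd hx hb ht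
  rw [integral_congr_ae key]
  simp

variable [BorelSpace E]

lemma lineDeriv_zero_aux2 [FiniteDimensional ℝ E] [Nontrivial E]
    {μ : Measure (E × ℝ)} [IsAddHaarMeasure μ]
    {f f' : E × ℝ → ℝ} {S : Set (E × ℝ)} (hS : S.Countable)
    (hf' : Integrable f' μ)
    (hf : ∀ x : E × ℝ, x ∉ S → HasLineDerivAt ℝ f (f' x) x (0, 1))
    (h0 : Tendsto f (cocompact (E × ℝ)) (𝓝 0)) :
    ∫ x, f' x ∂μ = 0 := by
  let ν : Measure E := addHaar
  have A : ν.prod volume = (addHaarScalarFactor (ν.prod volume) μ) • μ :=
    isAddLeftInvariant_eq_smul _ _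
  have Hf' : Integrable f' (ν.prod volume) := by
    rw [A]; exact hf'.smul_measure_nnreal
  rw [isAddLeftInvariant_eq_smul μ (ν.prod volume)]
  simp [lineDeriv_zero_aux1 hS Hf' hf h0]

/-- If `f → 0` at infinity, `f` has directional derivative `f'` in direction `v` off a countable
set, and `f'` is integrable, then `∫ f' = 0` (dimension at least two). -/
theorem lineDeriv_zero [FiniteDimensional ℝ E] (hdim : 2 ≤ finrank ℝ E)
    {μ : Measure E} [IsAddHaarMeasure μ]
    {f f' : E → ℝ} {v : E} {S : Set E} (hS : S.Countable)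
    (hf' : Integrable f' μ)
    (hf : ∀ x : E, x ∉ S → HasLineDerivAt ℝ f (f' x) x v)
    (h0 : Tendsto f (cocompact E) (𝓝 0)) :
    ∫ x, f' x ∂μ = 0 := by
  have : Nontrivial E := by
    apply Module.nontrivial_of_finrank_pos (R := ℝ); omega
  rcases eq_or_ne v 0 with rfl | hv
  · have hne : ∀ᵐ x ∂μ, f' x = 0 := by
      have h1 : μ S = 0 := hS.measure_zero μ
      have h2 : ∀ᵐ x ∂μ, x ∉ S := measure_eq_zero_iff_ae_notMem.1 h1
      filter_upwards [h2] with x hx
      simpa [(hasLineDerivAt_zero (f := f) (x := x)).lineDeriv] using (hf x hx).lineDeriv.symm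
    rw [integral_congr_ae hne]; simp
  let n := finrank ℝ E
  let E' := Fin (n - 1) → ℝ
  have hn : 2 ≤ n := hdim
  have : Nontrivial E' := by
    apply Module.nontrivial_of_finrank_pos (R := ℝ)
    simp [E']; omega
  obtain ⟨L, hL⟩ : ∃ L : E ≃L[ℝ] (E' × ℝ), L v = (0, 1) := by
    have : finrank ℝ (E' × ℝ) = n := by simpa [this, E'] using Nat.sub_add_cancel finrank_pos
    have L₀ : E ≃L[ℝ] (E' × ℝ) := (ContinuousLinearEquiv.ofFinrankEq this).symm
    obtain ⟨M, hM⟩ : ∃ M : (E' × ℝ) ≃L[ℝ] (E' × ℝ), M (L₀ v) = (0, 1) := by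
      apply SeparatingDual.exists_continuousLinearEquiv_apply_eq
      · simpa using hv
      · simp
    exact ⟨L₀.trans M, by simp [hM]⟩
  let ν := Measure.map L μ
  suffices H : ∫ (x : E' × ℝ), f' (L.symm x) ∂ν = 0 by
    have h3 : μ = Measure.map L.symm ν := by
      simp [ν, Measure.map_map L.symm.continuous.measurable L.continuous.measurable]
    have hL : IsClosedEmbedding L.symm := L.symm.toHomeomorph.isClosedEmbedding
    rw [h3, hL.integral_map]
    exact H
  have L_emb : MeasurableEmbedding L := L.toHomeomorph.measurableEmbedding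
  apply lineDeriv_zero_aux2 (f := fun x => f (L.symm x)) (hS.image L)
  · simpa [ν, L_emb.integrable_map_iff, Function.comp_def] using hf'
  · intro x hx
    have h4 : f = (f ∘ L.symm) ∘ (L : E →ₗ[ℝ] (E' × ℝ)) := by ext y; simp
    have h5 : L.symm x ∉ S := by
      intro h
      exact hx ⟨L.symm x, h, by simp⟩
    have hf1 := hf (L.symm x) h5
    rw [h4] at hf1
    convert! hf1.of_comp using 1
    · simp
    · simp [← hL]
  · have : Tendsto L.symm (cocompact (E' × ℝ)) (cocompact E) :=
      L.symm.toHomeomorph.isClosedEmbedding.tendsto_cocompact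
    exact h0.comp this

end Vale.Agent.P370.H993
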