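import Vale.Agent.P370.H993.Bds
import Vale.Agent.P370.H993.DivC
import Vale.Agent.P363.R.H10.Calc
import Vale.Agent.P370.H198.LatDefs

/-! **P2a**: the two Green identities for functions with a cusp at the origin. -/

namespace Vale.Agent.P370.H993

open MeasureTheory Set Filter Topology
open Vale.Agent.P363.H849 (Bd0 Bd1 R3 e3 aesm_of_continuousAt ae_ne_zero fderiv_norm_e3
  norm_contDiffAt inner_e3 norm_sq_R3)
open Vale.Agent.P363.B5 (S2 sig rad pol integral_pol integral_rad integrable_pol)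

noncomputable section

/-- A function with a cusp at the origin, its partial derivatives and its second pure partial
derivatives off the origin, all decaying exponentially. -/
structure Cusp (q : R3 → ℝ) (g s : Fin 3 → R3 → ℝ) : Prop where
  cont : Continuous q
  dq : ∀ x, x ≠ 0 → DifferentiableAt ℝ q x
  dqk : ∀ k x, x ≠ 0 → fderiv ℝ q x (e3 k) = g k x
  dg : ∀ k x, x ≠ 0 → DifferentiableAt ℝ (g k) x
  dgk : ∀ k x, x ≠ 0 → fderiv ℝ (g k) x (e3 k) = s k x
  bq : Bd0 q
  bg : ∀ k, Bd0 (g k)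
  bs : ∀ k, Bd1 (s k)

theorem vec_eq_sum (w : R3) : w = ∑ k, w k • e3 k := by
  ext i
  simp [e3, Fin.sum_univ_three]
  fin_cases i <;> simp

theorem coord_abs_le (w : R3) (k : Fin 3) : |w k| ≤ ‖w‖ := by
  have h2 := PiLp.norm_apply_le w k
  rwa [Real.norm_eq_abs] at h2

variable {q : R3 → ℝ} {g s : Fin 3 → R3 → ℝ}

theorem ray_cusp (h : Cusp q g s) (z : R3) (w : S2) :
    ∫ r in Ioi (0 : ℝ), ∑ k, g k (z + r • (w : R3)) * (w : R3) k = - q z := by
  have hw : ‖(w : R3)‖ = 1 := by simp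
  have hw0 : (w : R3) ≠ 0 := by
    intro h0; rw [h0] at hw; simp at hw
  set S : Set ℝ := {r | z + r • (w : R3) = 0} with hS
  have hSc : S.Countable := by
    apply Set.Subsingleton.countable
    intro a ha b hb
    have h1 : a • (w : R3) = b • (w : R3) := by
      have h2 : z + a • (w : R3) = z + b • (w : R3) := by
        rw [show z + a • (w : R3) = 0 from ha, show z + b • (w : R3) = 0 from hb]
      exact add_left_cancel h2
    exact smul_left_injective ℝ hw0 h1
  have hline : Continuous fun r : ℝ => z + r • (w : R3) := by fun_prop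
  have hder : ∀ r : ℝ, r ∉ S → HasDerivAt (fun r : ℝ => q (z + r • (w : R3)))
      (∑ k, g k (z + r • (w : R3)) * (w : R3) k) r := by
    intro r hr
    have hne : z + r • (w : R3) ≠ 0 := hr
    have h1 : HasDerivAt (fun r : ℝ => z + r • (w : R3)) (w : R3) r := by
      have := ((hasDerivAt_id r).smul_const (w : R3)).const_add z
      simpa using this
    have h2 := (h.dq _ hne).hasFDerivAt.comp_hasDerivAt r h1
    have h3 : fderiv ℝ q (z + r • (w : R3)) (w : R3) = ∑ k, g k (z + r • (w : R3)) * (w : R3) k := by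
      have h4 := congrArg (fderiv ℝ q (z + r • (w : R3))) (vec_eq_sum (w : R3))
      rw [h4, map_sum]
      refine Finset.sum_congr rfl fun k _ => ?_
      rw [map_smul, h.dqk k _ hne, smul_eq_mul, mul_comm]
    rw [← h3]
    exact h2
  have hint : IntegrableOn (fun r : ℝ => ∑ k, g k (z + r • (w : R3)) * (w : R3) k) (Ioi 0) := by
    refine integrable_finsetSum _ fun k _ => ?_
    obtain ⟨hc, A, c, hA, hc0, hb⟩ := h.bg k
    have hm : AEStronglyMeasurable (fun r : ℝ => g k (z + r • (w : R3)) * (w : R3) k) volume := by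
      have h1 : ContinuousOn (fun r : ℝ => g k (z + r • (w : R3)) * (w : R3) k) Sᶜ := by
        intro r hr
        have hne : z + r • (w : R3) ≠ 0 := hr
        have h2 : ContinuousAt (fun r : ℝ => g k (z + r • (w : R3))) r :=
          ContinuousAt.comp (f := fun r : ℝ => z + r • (w : R3)) (hc _ hne) hline.continuousAt
        exact (h2.mul continuousAt_const).continuousWithinAt
      have h2 := h1.aestronglyMeasurable (μ := volume) hSc.measurableSet.compl
      rwa [Measure.restrict_eq_self_of_ae_mem] at h2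
      exact measure_eq_zero_iff_ae_notMem.1 (hSc.measure_zero volume)
    have hI : IntegrableOn (fun r : ℝ => A * Real.exp (c * ‖z‖) * Real.exp (-c * r)) (Ioi 0) := by
      have := Vale.Agent.P363.H849.integrableOn_pow_exp 0 hc0
      have h2 := this.const_mul (A * Real.exp (c * ‖z‖))
      simpa [IntegrableOn] using h2
    refine hI.mono' hm.restrict ?_
    have hae : ∀ᵐ r : ℝ ∂(volume.restrict (Ioi 0)), r ∉ S :=
      ae_restrict_of_ae (measure_eq_zero_iff_ae_notMem.1 (hSc.measure_zero volume))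
    filter_upwards [hae, ae_restrict_mem measurableSet_Ioi] with r hr hr0
    simp only [mem_Ioi] at hr0
    have hne : z + r • (w : R3) ≠ 0 := hr
    rw [Real.norm_eq_abs, abs_mul]
    have h4 : r = ‖r • (w : R3)‖ := by rw [norm_smul, hw, mul_one, Real.norm_eq_abs, abs_of_pos hr0]
    have h5 : ‖r • (w : R3)‖ ≤ ‖z + r • (w : R3)‖ + ‖z‖ := by
      have := norm_sub_le (z + r • (w : R3)) z
      simpa using this
    have h6 : |(w : R3) k| ≤ 1 := (coord_abs_le _ k).trans hw.le
    calc |g k (z + r • (w : R3))| * |(w : R3) k|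
        ≤ (A * Real.exp (-c * ‖z + r • (w : R3)‖)) * 1 := by
          refine mul_le_mul (hb _ hne) h6 (abs_nonneg _) (by positivity)
      _ ≤ A * Real.exp (c * ‖z‖ + -c * r) := by
          rw [mul_one]
          refine mul_le_mul_of_nonneg_left (Real.exp_le_exp.2 ?_) hA
          nlinarith
      _ = _ := by rw [Real.exp_add]; ring
  have hF : ∀ R : ℝ, 0 ≤ R → ∫ r in (0 : ℝ)..R, ∑ k, g k (z + r • (w : R3)) * (w : R3) k =
      q (z + R • (w : R3)) - q (z + (0 : ℝ) • (w : R3)) := by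
    intro R hR
    refine integral_eq_of_hasDerivAt_off_countable_of_le (fun r : ℝ => q (z + r • (w : R3)))
      (fun r : ℝ => ∑ k, g k (z + r • (w : R3)) * (w : R3) k) hR hSc
      (h.cont.comp hline).continuousOn (fun r hr => hder r hr.2) ?_
    rw [intervalIntegrable_iff_integrableOn_Ioc_of_le hR]
    exact hint.mono_set Ioc_subset_Ioi_self
  have hlim : Tendsto (fun r : ℝ => q (z + r • (w : R3))) atTop (𝓝 0) := by
    refine (Bd0_tendsto h.bq).comp ?_
    rw [← Metric.cobounded_eq_cocompact, ← tendsto_norm_atTop_iff_cobounded]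
    refine tendsto_atTop_mono' atTop ?_ (tendsto_atTop_add_const_right atTop (-‖z‖) tendsto_id)
    filter_upwards [eventually_gt_atTop 0] with r hr
    have h4 : r = ‖r • (w : R3)‖ := by rw [norm_smul, hw, mul_one, Real.norm_eq_abs, abs_of_pos hr]
    have h5 : ‖r • (w : R3)‖ ≤ ‖z + r • (w : R3)‖ + ‖z‖ := by
      have := norm_sub_le (z + r • (w : R3)) z
      simpa using this
    simp only [id]
    linarith
  have h1 := intervalIntegral_tendsto_integral_Ioi 0 hint tendsto_id
  have h2 : Tendsto (fun R : ℝ => ∫ r in (0 : ℝ)..R, ∑ k, g k (z + r • (w : R3)) * (w : R3) k)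
      atTop (𝓝 (0 - q (z + (0 : ℝ) • (w : R3)))) := by
    refine Tendsto.congr' ?_ (hlim.sub_const _)
    filter_upwards [eventually_ge_atTop 0] with R hR
    rw [hF R hR]
  have h3 := tendsto_nhds_unique h1 h2
  rw [h3]
  simp

/-- the kernel `∇q(y) · (y - z)/|y - z|³` -/
def ker (g : Fin 3 → R3 → ℝ) (z y : R3) : ℝ := ∑ k, g k y * (y k - z k) / ‖y - z‖ ^ 3

theorem integrable_ker_k (h : Cusp q g s) (z : R3) (k : Fin 3) :
    Integrable fun y => g k y * (y k - z k) / ‖y - z‖ ^ 3 := by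
  have h1 := Bd0_integrable_sq (h.bg k) z
  have hm : AEStronglyMeasurable (fun y => g k y * (y k - z k) / ‖y - z‖ ^ 3) volume := by
    refine aesm_div ((aesm_of_continuousAt (h.bg k).1).mul ?_) (by fun_prop)
    have : Continuous fun y : R3 => y k - z k := by fun_prop
    exact this.aestronglyMeasurable
  refine h1.norm.mono' hm (Eventually.of_forall fun y => ?_)
  have h2 : |(y - z) k| ≤ ‖y - z‖ := coord_abs_le _ k
  have h3 : (y - z) k = y k - z k := rfl
  rw [h3] at h2
  rw [Real.norm_eq_abs, Real.norm_eq_abs, abs_div, abs_div, abs_mul, abs_pow, abs_pow, abs_norm]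
  by_cases h0 : ‖y - z‖ = 0
  · rw [h0]; simp
  · have h1 : 0 < ‖y - z‖ := lt_of_le_of_ne (norm_nonneg _) (Ne.symm h0)
    calc |g k y| * |y k - z k| / ‖y - z‖ ^ 3 ≤ |g k y| * ‖y - z‖ / ‖y - z‖ ^ 3 := by gcongr
      _ = _ := by field_simp

/-- Newton's delta identity for functions with a cusp. -/
theorem newton_cusp (h : Cusp q g s) (z : R3) : ∫ y, ker g z y = -(4 * Real.pi * q z) := by
  have hI : Integrable (ker g z) := integrable_finsetSum _ fun k _ => integrable_ker_k h z k
  have e1 : ∫ y, ker g z y = ∫ v, ker g z (z + v) := (integral_add_left_eq_self (ker g z) z).symm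
  have hI2 : Integrable fun v => ker g z (z + v) := hI.comp_add_left z
  rw [e1, integral_pol, integral_prod _ (integrable_pol hI2)]
  have e2 : ∀ w : S2, ∫ r : Ioi (0 : ℝ), ker g z (z + pol (w, r)) ∂rad = - q z := by
    intro w
    have hw : ‖(w : R3)‖ = 1 := by simp
    have := integral_rad (fun r => ker g z (z + r • (w : R3)))
    rw [show (∫ r : Ioi (0 : ℝ), ker g z (z + pol (w, r)) ∂rad) =
      ∫ r : Ioi (0 : ℝ), ker g z (z + (r : ℝ) • (w : R3)) ∂rad from rfl, this, ← ray_cusp h z w]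
    refine setIntegral_congr_fun measurableSet_Ioi fun r hr => ?_
    simp only [mem_Ioi] at hr
    simp only [ker]
    rw [Finset.mul_sum]
    refine Finset.sum_congr rfl fun k _ => ?_
    rw [add_sub_cancel_left, norm_smul, hw, mul_one, Real.norm_eq_abs, abs_of_pos hr]
    have : (z + r • (w : R3)) k - z k = r * (w : R3) k := by simp
    rw [this]
    field_simp
  simp only [e2]
  rw [integral_const, sig_real_univ, smul_eq_mul]
  ring

/-! ### line derivatives of the kernels -/

theorem hld_norm {x z : R3} (h : x ≠ z) (k : Fin 3) :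
    HasLineDerivAt ℝ (fun x : R3 => ‖x - z‖) ((x k - z k) / ‖x - z‖) x (e3 k) := by
  have hne : x - z ≠ 0 := sub_ne_zero.2 h
  have h1 : HasFDerivAt (fun y : R3 => ‖y‖) (fderiv ℝ (fun y : R3 => ‖y‖) (x - z)) (x - z) :=
    ((norm_contDiffAt hne).differentiableAt (by simp)).hasFDerivAt
  have h2 : HasFDerivAt (fun x : R3 => x - z) (ContinuousLinearMap.id ℝ R3) x :=
    (hasFDerivAt_id x).sub_const z
  have h3 := h1.comp x h2
  have h4 := h3.hasLineDerivAt (e3 k)
  have h5 : ((fderiv ℝ (fun y : R3 => ‖y‖) (x - z)).comp (ContinuousLinearMap.id ℝ R3)) (e3 k) =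
      (x k - z k) / ‖x - z‖ := by
    rw [ContinuousLinearMap.comp_apply, ContinuousLinearMap.id_apply, fderiv_norm_e3 hne k]
    rfl
  rw [h5] at h4
  exact h4

theorem hld_coord (x z : R3) (k : Fin 3) :
    HasLineDerivAt ℝ (fun x : R3 => x k - z k) 1 x (e3 k) := by
  have h1 : HasFDerivAt (fun x : R3 => x k) (EuclideanSpace.proj (𝕜 := ℝ) k : R3 →L[ℝ] ℝ) x :=
    (EuclideanSpace.proj (𝕜 := ℝ) k : R3 →L[ℝ] ℝ).hasFDerivAt
  have h2 := (h1.sub_const (z k)).hasLineDerivAt (e3 k)
  have h3 : (EuclideanSpace.proj (𝕜 := ℝ) k : R3 →L[ℝ] ℝ) (e3 k) = 1 := by simp [e3]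
  rw [h3] at h2
  exact h2

theorem hld_inv {x z : R3} (h : x ≠ z) (k : Fin 3) :
    HasLineDerivAt ℝ (fun x : R3 => 1 / ‖x - z‖) (-(x k - z k) / ‖x - z‖ ^ 3) x (e3 k) := by
  have hn : ‖x - z‖ ≠ 0 := norm_ne_zero_iff.2 (sub_ne_zero.2 h)
  have h1 := hld_norm h k
  unfold HasLineDerivAt at h1 ⊢
  have h2 : ‖x + (0 : ℝ) • e3 k - z‖ ≠ 0 := by simpa using hn
  have h3 := h1.inv h2
  simp only [zero_smul, add_zero] at h3
  have h4 : -((x k - z k) / ‖x - z‖) / ‖x - z‖ ^ 2 = -(x k - z k) / ‖x - z‖ ^ 3 := by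
    field_simp
  rw [h4] at h3
  simp only [one_div]
  exact h3

theorem hld_dir {x z : R3} (h : x ≠ z) (k : Fin 3) :
    HasLineDerivAt ℝ (fun x : R3 => (x k - z k) / ‖x - z‖)
      (1 / ‖x - z‖ - (x k - z k) ^ 2 / ‖x - z‖ ^ 3) x (e3 k) := by
  have h1 := Vale.Agent.P363.R.H10.HasLineDerivAt.mul' (hld_coord x z k) (hld_inv h k)
  have e1 : (fun x : R3 => (x k - z k) / ‖x - z‖) = fun x : R3 => (x k - z k) * (1 / ‖x - z‖) := by
    funext x; ring
  rw [e1]
  convert h1 using 1
  ring

theorem hld_of {φ : R3 → ℝ} {x : R3} {c : ℝ} {k : Fin 3} (hd : DifferentiableAt ℝ φ x)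
    (hk : fderiv ℝ φ x (e3 k) = c) : HasLineDerivAt ℝ φ c x (e3 k) := by
  rw [← hk]
  exact hd.hasFDerivAt.hasLineDerivAt (e3 k)

theorem tendsto_inv_dist (z : R3) : Tendsto (fun x : R3 => 1 / ‖x - z‖) (cocompact R3) (𝓝 0) := by
  have h1 : Tendsto (fun x : R3 => ‖x - z‖) (cocompact R3) atTop := by
    refine tendsto_atTop_mono (f := fun x : R3 => ‖x‖ + -‖z‖) (fun x => ?_)
      (tendsto_atTop_add_const_right _ (-‖z‖) tendsto_norm_cocompact_atTop)
    have := norm_sub_norm_le x z
    linarith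
  exact h1.const_div_atTop 1

/-- `∫ Δq / |x - z| = -4π q(z)` -/
theorem green2 (h : Cusp q g s) (z : R3) :
    ∫ x, (∑ k, s k x) / ‖x - z‖ = -(4 * Real.pi) * q z := by
  have hk : ∀ k, ∫ x, s k x / ‖x - z‖ = ∫ x, g k x * (x k - z k) / ‖x - z‖ ^ 3 := by
    intro k
    have i1 : Integrable fun x => s k x / ‖x - z‖ := Bd1_integrable_div (h.bs k) z
    have i2 := integrable_ker_k h z k
    have i12 : Integrable fun x => s k x / ‖x - z‖ - g k x * (x k - z k) / ‖x - z‖ ^ 3 := i1.sub i2
    have h0 : ∫ x, (s k x / ‖x - z‖ - g k x * (x k - z k) / ‖x - z‖ ^ 3) = 0 := by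
      refine lineDeriv_zero (E := R3) (by simp) (f := fun x => g k x * (1 / ‖x - z‖)) (v := e3 k)
        (S := {0, z}) ((Set.finite_singleton z).insert 0).countable i12 ?_ ?_
      · intro x hx
        simp only [mem_insert_iff, mem_singleton_iff, not_or] at hx
        have h1 := Vale.Agent.P363.R.H10.HasLineDerivAt.mul' (hld_of (h.dg k x hx.1) (h.dgk k x hx.1))
          (hld_inv hx.2 k)
        have e : s k x / ‖x - z‖ - g k x * (x k - z k) / ‖x - z‖ ^ 3 =
          s k x * (1 / ‖x - z‖) + g k x * (-(x k - z k) / ‖x - z‖ ^ 3) := by ring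
        rw [e]
        exact h1
      · have := (Bd0_tendsto (h.bg k)).mul (tendsto_inv_dist z)
        simpa using this
    rw [integral_sub i1 i2] at h0
    linarith
  have e1 : ∫ x, (∑ k, s k x) / ‖x - z‖ = ∑ k, ∫ x, s k x / ‖x - z‖ := by
    simp only [Finset.sum_div]
    exact integral_finsetSum _ fun k _ => Bd1_integrable_div (h.bs k) z
  have e2 : ∫ y, ker g z y = ∑ k, ∫ x, g k x * (x k - z k) / ‖x - z‖ ^ 3 := by
    unfold ker
    exact integral_finsetSum _ fun k _ => integrable_ker_k h z k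
  rw [e1, Finset.sum_congr rfl fun k _ => hk k, ← e2, newton_cusp h z]
  ring

/-- `∫ q / |x - z| = ½ ∫ |x - z| Δq` -/
theorem green1 (h : Cusp q g s) (z : R3) :
    ∫ x, q x / ‖x - z‖ = 1 / 2 * ∫ x, ‖x - z‖ * ∑ k, s k x := by
  have i0 : Integrable fun x => q x / ‖x - z‖ := Bd0_integrable_div h.bq z
  have iq : ∀ k : Fin 3, Integrable fun x => q x * ((x k - z k) ^ 2 / ‖x - z‖ ^ 3) := by
    intro k
    have hm : AEStronglyMeasurable (fun x => q x * ((x k - z k) ^ 2 / ‖x - z‖ ^ 3)) volume := by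
      refine h.cont.aestronglyMeasurable.mul (aesm_div ?_ (by fun_prop))
      have : Continuous fun y : R3 => (y k - z k) ^ 2 := by fun_prop
      exact this.aestronglyMeasurable
    refine i0.norm.mono' hm (Eventually.of_forall fun y => ?_)
    have h2 : |(y - z) k| ≤ ‖y - z‖ := coord_abs_le _ k
    have h3 : (y - z) k = y k - z k := rfl
    rw [h3] at h2
    rw [Real.norm_eq_abs, Real.norm_eq_abs, abs_div, abs_mul, abs_div, abs_pow, abs_pow, abs_norm]
    by_cases h0 : ‖y - z‖ = 0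
    · rw [h0]; simp
    · have h1 : 0 < ‖y - z‖ := lt_of_le_of_ne (norm_nonneg _) (Ne.symm h0)
      calc |q y| * (|y k - z k| ^ 2 / ‖y - z‖ ^ 3) ≤ |q y| * (‖y - z‖ ^ 2 / ‖y - z‖ ^ 3) := by gcongr
        _ = _ := by field_simp
  have is : ∀ k : Fin 3, Integrable fun x => ‖x - z‖ * s k x := fun k =>
    Bd1_integrable (Bd1_mul_dist (h.bs k) z)
  have i1 : ∀ k : Fin 3, Integrable fun x => q x * (1 / ‖x - z‖ - (x k - z k) ^ 2 / ‖x - z‖ ^ 3) := by
    intro k
    refine (i0.sub (iq k)).congr (Eventually.of_forall fun x => ?_)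
    simp only [Pi.sub_apply]
    ring
  have i12 : ∀ k : Fin 3, Integrable fun x =>
      q x * (1 / ‖x - z‖ - (x k - z k) ^ 2 / ‖x - z‖ ^ 3) - ‖x - z‖ * s k x :=
    fun k => (i1 k).sub (is k)
  have hk : ∀ k, ∫ x, (q x * (1 / ‖x - z‖ - (x k - z k) ^ 2 / ‖x - z‖ ^ 3) - ‖x - z‖ * s k x) = 0 := by
    intro k
    refine lineDeriv_zero (E := R3) (by simp)
      (f := fun x => q x * ((x k - z k) / ‖x - z‖) - ‖x - z‖ * g k x) (v := e3 k)
      (S := {0, z}) ((Set.finite_singleton z).insert 0).countable (i12 k) ?_ ?_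
    · intro x hx
      simp only [mem_insert_iff, mem_singleton_iff, not_or] at hx
      have h1 := Vale.Agent.P363.R.H10.HasLineDerivAt.mul' (hld_of (h.dq x hx.1) (h.dqk k x hx.1))
        (hld_dir hx.2 k)
      have h2 := Vale.Agent.P363.R.H10.HasLineDerivAt.mul' (hld_norm hx.2 k)
        (hld_of (h.dg k x hx.1) (h.dgk k x hx.1))
      have h3 := Vale.Agent.P363.R.H10.HasLineDerivAt.sub' h1 h2
      have e : q x * (1 / ‖x - z‖ - (x k - z k) ^ 2 / ‖x - z‖ ^ 3) - ‖x - z‖ * s k x =
        g k x * ((x k - z k) / ‖x - z‖) + q x * (1 / ‖x - z‖ - (x k - z k) ^ 2 / ‖x - z‖ ^ 3) -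
        ((x k - z k) / ‖x - z‖ * g k x + ‖x - z‖ * s k x) := by ring
      rw [e]
      exact h3
    · have t1 : Tendsto (fun x : R3 => q x * ((x k - z k) / ‖x - z‖)) (cocompact R3) (𝓝 0) := by
        refine squeeze_zero_norm (a := fun x => |q x|) (fun x => ?_) ?_
        · rw [Real.norm_eq_abs, abs_mul, abs_div, abs_norm]
          have h2 : |(x - z) k| ≤ ‖x - z‖ := coord_abs_le _ k
          have h3 : (x - z) k = x k - z k := rfl
          rw [h3] at h2
          have h4 : |x k - z k| / ‖x - z‖ ≤ 1 := div_le_one_of_le₀ h2 (norm_nonneg _)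
          exact mul_le_of_le_one_right (abs_nonneg _) h4
        · have := (Bd0_tendsto h.bq).abs
          simpa using this
      have t2 := Bd0_tendsto (Bd0_mul_dist (h.bg k) z)
      have := t1.sub t2
      simpa using this
  have hsum : ∑ k, ∫ x, (q x * (1 / ‖x - z‖ - (x k - z k) ^ 2 / ‖x - z‖ ^ 3) - ‖x - z‖ * s k x) = 0 :=
    Finset.sum_eq_zero fun k _ => hk k
  rw [← integral_finsetSum _ fun k _ => i12 k] at hsum
  have iL : Integrable fun x => ‖x - z‖ * ∑ k, s k x := by
    simp only [Finset.mul_sum]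
    exact integrable_finsetSum _ fun k _ => is k
  have e1 : ∀ᵐ x : R3, ∑ k, (q x * (1 / ‖x - z‖ - (x k - z k) ^ 2 / ‖x - z‖ ^ 3) - ‖x - z‖ * s k x) =
      2 * (q x / ‖x - z‖) - ‖x - z‖ * ∑ k, s k x := by
    have hne : ∀ᵐ x : R3, x ≠ z := by rw [ae_iff]; simp
    filter_upwards [hne] with x hx
    have hn : ‖x - z‖ ≠ 0 := norm_ne_zero_iff.2 (sub_ne_zero.2 hx)
    have h1 := norm_sq_R3 (x - z)
    simp only [Fin.sum_univ_three, PiLp.sub_apply] at h1 ⊢
    have h2 : (x 0 - z 0) ^ 2 / ‖x - z‖ ^ 3 + (x 1 - z 1) ^ 2 / ‖x - z‖ ^ 3 +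
        (x 2 - z 2) ^ 2 / ‖x - z‖ ^ 3 = 1 / ‖x - z‖ := by
      rw [← add_div, ← add_div, ← h1]
      field_simp
    linear_combination (-q x) * h2
  rw [integral_congr_ae e1, integral_sub (i0.const_mul 2) iL, integral_const_mul] at hsum
  linarith

/-- **P2a**, general form: `IsLap q (Δq)` for functions with a cusp. -/
theorem Cusp.isLap (h : Cusp q g s) {L : R3 → ℝ} (hL : ∀ x, x ≠ 0 → L x = ∑ k, s k x) :
    H198.IsLap q L := by
  have hae : ∀ᵐ x : R3, L x = ∑ k, s k x := by
    filter_upwards [ae_ne_zero] with x hx using hL x hx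
  refine ⟨?_, ?_, fun z => ?_, fun z => ?_⟩
  · refine Bd0_integrable (Bd0_mul_growth h.bq (fun x _ => by fun_prop) 4 (B := 1) (fun x => ?_))
    rw [abs_of_nonneg (by positivity), one_mul]
    have := norm_nonneg x
    nlinarith [sq_nonneg ‖x‖, mul_nonneg this this, mul_nonneg (mul_nonneg this this) this]
  · have : Integrable fun x => (1 + ‖x‖) * ∑ k, s k x := by
      simp only [Finset.mul_sum]
      refine integrable_finsetSum _ fun k _ => ?_
      refine Bd1_integrable (Bd1_mul_growth (h.bs k) (fun x _ => by fun_prop) 1 (B := 1) (fun x => ?_))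
      rw [abs_of_nonneg (by positivity), one_mul, pow_one]
    refine this.congr ?_
    filter_upwards [hae] with x hx
    rw [hx]
  · rw [green1 h z]
    congr 1
    refine integral_congr_ae ?_
    filter_upwards [hae] with x hx
    rw [hx]
  · rw [← green2 h z]
    refine integral_congr_ae ?_
    filter_upwards [hae] with x hx
    rw [hx]

end

end Vale.Agent.P370.H993
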